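import Vale.Agent.P181.H605.R6
import Vale.Agent.P181.H73.R5
import Vale.Agent.P181.H73.R4
import Vale.Agent.P181.H75.R1
import Vale.Agent.P181.H75.R2
import Vale.Agent.P181.H831.R3

set_option autoImplicit false

/-!
# P181: Foulkes' inequality for all tall shapes

For all `b ≥ a ≥ 3` and all shapes with `lam_a ≥ b - a + 2`, without upper bound.
-/

namespace Vale.Agent.P181.H605

open Vale.Agent.P181 Vale.Agent.P181.H280 Vale.Agent.P181.H270 Vale.Agent.P181.H73
  Vale.Agent.P181.H983 Finset MvPolynomial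

theorem rect_of_r4 (h : H75.R4) : Rect := by
  intro a k q ha _ hq hev F _ hF
  exact H73.place_full h (by omega) hq rfl hev (linS a) F hF
    (fun i => (X i : MvPolynomial (Fin a) ℂ)) (fun i => X_mem_linS i)

theorem tall_of_r4 (h : H75.R4) (a b n : ℕ) (ha : 3 ≤ a) (hab : a ≤ b) (han : a ≤ n)
    (lam : Fin n → ℕ) (h1 : ∀ i : Fin n, (i : ℕ) < a → b + 2 ≤ lam i + a) :
    plethMult a b n lam ≤ plethMult b a n lam :=
  uniform_all (rect_of_r4 h) a b n ha hab han lam h1

/-- There is no rectangle. -/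
theorem rect : Rect := rect_of_r4 (H73.r4 H75.r1 H75.r2 H831.r3)

/-- **Foulkes' inequality for all `b ≥ a ≥ 3` and all shapes with `lam_a ≥ b - a + 2`.** -/
theorem tall (a b n : ℕ) (ha : 3 ≤ a) (hab : a ≤ b) (han : a ≤ n)
    (lam : Fin n → ℕ) (h1 : ∀ i : Fin n, (i : ℕ) < a → b + 2 ≤ lam i + a) :
    plethMult a b n lam ≤ plethMult b a n lam :=
  uniform_all rect a b n ha hab han lam h1

end Vale.Agent.P181.H605
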