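import Vale.Agent.P181.H983.Final

set_option autoImplicit false

/-!
# P181: the uniform theorem for tall shapes without the upper bound on the last row

`Rect` = a symmetric form with the master relation has no rectangle of `b` columns.
-/

open scoped TensorProduct

namespace Vale.Agent.P181.H605

open Vale.Agent.P181 Vale.Agent.P181.H280 Vale.Agent.P181.H270 Vale.Agent.P181.H73
  Vale.Agent.P181.H983 Finset MvPolynomial

/-- No rectangle. -/
def Rect : Prop := ∀ (a k q : ℕ), 3 ≤ a → k < a → 1 ≤ q → Even (q * a + k) →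
  ∀ F : MultilinearMap ℂ (fun _ : Fin a => MvPolynomial (Fin a) ℂ) ℂ, IsSymm F →
    Rel k q (linS a) F →
    ((altC (fun i => (X i : MvPolynomial (Fin a) ℂ)))^[q * a + k] F) (fun _ => 1) = 0

/-- A form which vanishes at `(1, …, 1)` vanishes in degree zero. -/
lemma deg_zero {a : ℕ} {φ : MultilinearMap ℂ (fun _ : Fin a => MvPolynomial (Fin a) ℂ) ℂ}
    (h : φ (fun _ => 1) = 0) (P : Fin a → MvPolynomial (Fin a) ℂ)
    (hP : ∀ i, P i ∈ linS a ^ 0) : φ P = 0 := by
  have h1 : ∀ i, ∃ c : ℂ, P i = c • (1 : MvPolynomial (Fin a) ℂ) := by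
    intro i
    have h2 := hP i
    rw [pow_zero, Submodule.mem_one] at h2
    obtain ⟨c, hc⟩ := h2
    exact ⟨c, by rw [← hc, Algebra.algebraMap_eq_smul_one]⟩
  choose c hc using h1
  have h2 : P = fun i => c i • (1 : MvPolynomial (Fin a) ℂ) := funext hc
  rw [h2, MultilinearMap.map_smul_univ, h, smul_zero]

/-- An alternating form vanishes at `(1, …, 1)`. -/
lemma odd_one {a m : ℕ} (ha : 2 ≤ a) (hm : Odd m)
    {φ : MultilinearMap ℂ (fun _ : Fin a => MvPolynomial (Fin a) ℂ) ℂ} (hs : IsSgn m φ) :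
    φ (fun _ => 1) = 0 := by
  have h1 := hs (Equiv.swap (⟨0, by omega⟩ : Fin a) ⟨1, by omega⟩) (fun _ => 1)
  rw [Equiv.Perm.sign_swap (by intro h; simp [Fin.ext_iff] at h)] at h1
  have h2 : (((-1 : ℤˣ) : ℤ) : ℂ) ^ m = -1 := by
    simp [hm.neg_one_pow]
  rw [h2] at h1
  have h3 : (2 : ℂ) * φ (fun _ => 1) = 0 := by linear_combination h1
  exact (mul_eq_zero.1 h3).resolve_left two_ne_zero

/-- The rectangle vanishes, any parity. -/
theorem rect_all (hR : Rect) (a k q : ℕ) (ha : 3 ≤ a) (hk : k < a) (hq : 1 ≤ q)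
    (F : MultilinearMap ℂ (fun _ : Fin a => MvPolynomial (Fin a) ℂ) ℂ) (hs : IsSymm F)
    (hF : Rel k q (linS a) F) (P : Fin a → MvPolynomial (Fin a) ℂ)
    (hP : ∀ i, P i ∈ linS a ^ 0) :
    ((altC (fun i => (X i : MvPolynomial (Fin a) ℂ)))^[q * a + k] F) P = 0 := by
  apply deg_zero _ P hP
  rcases Nat.even_or_odd (q * a + k) with h | h
  · exact hR a k q ha hk hq h F hs hF
  · exact odd_one (by omega) h (isSgn_iter hs _ _)

/-- The claim at level `k`, without hypothesis. -/
def Claim' (c q k : ℕ) : Prop :=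
  ∀ F : MultilinearMap ℂ (fun _ : Fin (c + 3) => MvPolynomial (Fin (c + 3)) ℂ) ℂ, IsSymm F →
    Rel k (q + 1) (linS (c + 3)) F →
    ∀ P : Fin (c + 3) → MvPolynomial (Fin (c + 3)) ℂ, (∀ i, P i ∈ linS (c + 3) ^ (c + 1)) →
      ((altC (xs (c + 3)))^[q * (c + 3) + k + 2] F) P = 0

theorem base' (c q : ℕ) : Claim' c q 0 := by
  intro F hs hR
  exact base c q F hs hR (fun j hj => absurd hj (by omega))

/-- **The induction step.** -/
theorem step' (hRect : Rect) (h3 : S3) (h4a : S4a) (h4b : S4b) (h5 : S5) (h6 : S6) (h8 : S8)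
    {c q k : ℕ} (hk : k ≤ c + 1) (ih : Claim' c q k) : Claim' c q (k + 1) := by
  intro F hs hR
  set M := q * (c + 3) + k + 2 with hM
  have hd : (c + 1) + M = (q + 1) * (c + 3) + k := by rw [hM]; ring
  have key : ∀ l ∈ linS (c + 3), ∀ y : Fin (c + 3) → MvPolynomial (Fin (c + 3)) ℂ,
      (∀ i, y i ∈ linS (c + 3) ^ (c + 1)) →
      ((altC (xs (c + 3)))^[M] F) (fun i => l * y i) = 0 := by
    intro l hl
    have hsl : IsSymm (mulL l F) := mulL_symm l hs
    obtain ⟨F', hs', hF'⟩ := h3 M (c + 3) ((c + 1) + M) (mulL l F) hsl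
    have hrel : Rel k (q + 1) (linS (c + 3)) F' := by
      apply h6
      intro w
      have h1 : ∀ (e : Equiv.Perm (Fin k ⊕ (Fin (c + 3) × Fin (q + 1))))
          (σ : Fin k → Equiv.Perm (Fin (c + 3))), wv (slot e σ) F' w =
          colZ M (c + 3) (wv (slot e σ) (mulL l F)) w := by
        intro e σ
        apply hF'
        intro p
        rw [slot_fibre, hd]
      simp only [h1]
      have h2 : ∑ e : Equiv.Perm (Fin k ⊕ (Fin (c + 3) × Fin (q + 1))),
          ∑ σ : Fin k → Equiv.Perm (Fin (c + 3)),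
            colZ M (c + 3) (wv (slot e σ) (mulL l F)) w =
          ∑ ι : Fin M × Fin (c + 3) ↪ (Fin k ⊕ (Fin (c + 3) × Fin (q + 1))) × Fin (c + 3),
            colSum ι (fun w => ∑ e : Equiv.Perm (Fin k ⊕ (Fin (c + 3) × Fin (q + 1))),
              ∑ σ : Fin k → Equiv.Perm (Fin (c + 3)), wv (slot e σ) (mulL l F) w) w := by
        simp only [colSum_sum univ, colZ]
        rw [Finset.sum_congr rfl (fun e _ => Finset.sum_comm), Finset.sum_comm]
      rw [h2]
      apply Finset.sum_eq_zero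
      intro ι _
      exact h5 (c + 3) k q M F hR l hl (by rw [hM]) ι w
    have hz := ih F' hs' hrel
    have hfin : ∀ P : Fin (c + 3) → MvPolynomial (Fin (c + 3)) ℂ,
        (∀ i, P i ∈ linS (c + 3) ^ (c + 1)) →
        ((altC (fun i => (X i : MvPolynomial (Fin (c + 3)) ℂ)))^[M] (mulL l F)) P = 0 := by
      apply h4b (c + 3) M (c + 1) (mulL l F) hsl
      apply s1
      intro ι w
      have h1 : (wv (fun p : Fin (c + 3) × Fin (c + 1 + M) => p.1) F') =
          colZ M (c + 3) (wv (fun p => p.1) (mulL l F)) := by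
        funext w
        apply hF'
        intro p
        apply fst_fibre' rfl
      rw [← h1]
      apply h4a (c + 3) M (c + 1) F' hs' hz
      intro p
      apply fst_fibre' rfl
    intro y hy
    rw [← altC_iter_mulL]
    exact hfin y hy
  have hcol : Col (linS (c + 3)) c ((altC (xs (c + 3)))^[M + 1] F) := by
    apply cstmt' (linS (c + 3)) (κ := M + 1)
    · exact isSgn_iter hs _ _
    · intro w hw v hv0 hv
      rw [Function.iterate_succ_apply']
      exact s7 _ (linS (c + 3)) c _ (xs (c + 3)) (xs_mem _) key w hw v hv0 hv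
  have h1 : q * (c + 3) + (k + 1) + 2 = M + 1 := by rw [hM]; ring
  rw [h1]
  apply capIter h8 (c + 3) (c + 1) c _ hcol (by omega)
  intro P hP
  rw [← Function.iterate_add_apply]
  have h2 : c + 1 + (M + 1) = (q + 1) * (c + 3) + (k + 1) := by
    have h3 : (q + 1) * (c + 3) = q * (c + 3) + (c + 3) := by ring
    omega
  rw [h2]
  apply rect_all hRect (c + 3) (k + 1) (q + 1) (by omega) (by omega) (by omega) F hs hR P
  have h3 : c + 1 - (c + 1) = 0 := by omega
  rw [h3] at hP
  exact hP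

/-- The claim at all levels `k < a`. -/
theorem claim_all' (hRect : Rect) (c q : ℕ) : ∀ k, k ≤ c + 2 → Claim' c q k := by
  intro k
  induction k with
  | zero =>
    intro _
    exact base' c q
  | succ k ih =>
    intro hk
    exact step' hRect H964.S3.s3 H270.s4a H968.s4b H869.s5 H879.s6 H907.s8 (by omega)
      (ih (by omega))

/-- The hybrid map kills no highest weight vector of a tall shape. -/
theorem vanish_all (hRect : Rect) {c q k b : ℕ} (hk : k ≤ c + 2)
    (hb : b = (q + 1) * (c + 3) + k)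
    (lam : Fin (c + 3) → ℕ) (hanti : ∀ i, lam (Fin.last (c + 2)) ≤ lam i)
    (h1 : q * (c + 3) + k + 2 ≤ lam (Fin.last (c + 2)))
    (h2 : lam (Fin.last (c + 2)) ≤ b)
    (l : (Fin (c + 3) → Fin b → (Fin (c + 3) → ℂ)) →₀ ℂ)
    (hx : elOf l ∈ hwSpace lam (plethAct (c + 3) b (c + 3)))
    (hF : Rel k (q + 1) (linS (c + 3)) (formOf l)) :
    ∀ P : Fin (c + 3) → MvPolynomial (Fin (c + 3)) ℂ, (∀ i, P i ∈ linS (c + 3) ^ b) →
      formOf l P = 0 := by
  have hHW : HWForm (xs (c + 3)) (fun i => pderiv i) (fun b => linS (c + 3) ^ b) b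
      (fun i => (lam i : ℂ)) (formOf l) := by
    have h1 := hwForm_formOf (le_refl (c + 3)) lam l hx
    simpa using h1
  set m := lam (Fin.last (c + 2)) with hm
  have hqq : (q + 1) * (c + 3) = q * (c + 3) + (c + 3) := by ring
  apply descent lam (formOf l) (formOf_symm l) hHW m (by omega) hanti
  have h3 : ∀ P : Fin (c + 3) → MvPolynomial (Fin (c + 3)) ℂ,
      (∀ i, P i ∈ linS (c + 3) ^ (c + 1)) →
      ((altC (xs (c + 3)))^[q * (c + 3) + k + 2] (formOf l)) P = 0 :=
    claim_all' hRect c q k hk (formOf l) (formOf_symm l) hF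
  intro P hP
  obtain ⟨t, ht⟩ : ∃ t, m = t + (q * (c + 3) + k + 2) := ⟨m - (q * (c + 3) + k + 2), by omega⟩
  have h4 : (altC (fun i => (X i : MvPolynomial (Fin (c + 3)) ℂ)))^[m] (formOf l) =
      (altC (xs (c + 3)))^[t] ((altC (xs (c + 3)))^[q * (c + 3) + k + 2] (formOf l)) := by
    rw [← Function.iterate_add_apply, ← ht]
  rw [h4]
  apply altC_iter_zero (linS (c + 3)) (xs (c + 3)) (xs_mem _) t (b - m) _ _ P hP
  intro Q hQ
  apply h3 Q
  intro i
  have h5 : c + 1 = b - m + t := by omega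
  rw [h5]
  exact hQ i

/-- **Uniform theorem, `dim V = a`.** -/
theorem uniform_self' (hRect : Rect) {a b : ℕ} (ha : 3 ≤ a) (hab : a ≤ b) (lam : Fin a → ℕ)
    (hanti : Antitone lam) (h1 : ∀ i, b + 2 ≤ lam i + a)
    (h2 : ∀ i : Fin a, (i : ℕ) + 1 = a → lam i ≤ b) :
    plethMult a b a lam ≤ plethMult b a a lam := by
  obtain ⟨c, rfl⟩ := Nat.exists_eq_add_of_le' ha
  have hlast : ∀ i, lam (Fin.last (c + 2)) ≤ lam i := fun i => hanti (Fin.le_last i)
  have hdm := Nat.div_add_mod b (c + 3)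
  have hmod : b % (c + 3) < c + 3 := Nat.mod_lt _ (by omega)
  have hdiv : 1 ≤ b / (c + 3) := (Nat.one_le_div_iff (by omega)).2 hab
  obtain ⟨q, hq⟩ : ∃ q, b / (c + 3) = q + 1 := ⟨b / (c + 3) - 1, by omega⟩
  set k := b % (c + 3) with hk
  rw [hq] at hdm
  have hb : b = (q + 1) * (c + 3) + k := by rw [← hdm]; ring
  have hcard : Fintype.card (H394.T k (c + 3) (q + 1)) = b := by
    rw [Fintype.card_sum, Fintype.card_prod, Fintype.card_fin, Fintype.card_fin,
      Fintype.card_fin, hb]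
    ring
  let ε : H394.T k (c + 3) (q + 1) ≃ Fin b := Fintype.equivFinOfCardEq hcard
  have hqq : (q + 1) * (c + 3) = q * (c + 3) + (c + 3) := by ring
  refine (H394.plethMult_le_of_formG ε lam ?_).2
  intro l hx hF
  apply vanish_all hRect (by omega) hb lam hlast _ _ l hx hF
  · have h3 := h1 (Fin.last (c + 2))
    omega
  · exact h2 (Fin.last (c + 2)) (by simp)

/-- The last row is at most the average. -/
lemma last_le {a b : ℕ} (ha : 0 < a) (mu : Fin a → ℕ) (hanti : Antitone mu)
    (hsum : ∑ i, mu i = a * b) (i : Fin a) (hi : (i : ℕ) + 1 = a) : mu i ≤ b := by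
  by_contra hc
  push Not at hc
  have h1 : ∀ j, b + 1 ≤ mu j := by
    intro j
    refine le_trans (Nat.succ_le_of_lt hc) (hanti ?_)
    rw [Fin.le_def]
    omega
  have h2 : a * (b + 1) ≤ ∑ i, mu i := by
    calc a * (b + 1) = ∑ _i : Fin a, (b + 1) := by simp
      _ ≤ ∑ i, mu i := Finset.sum_le_sum fun j _ => h1 j
  rw [hsum] at h2
  nlinarith

/-- **Uniform theorem, any `dim V ≥ a`**: Foulkes' inequality for all `b ≥ a ≥ 3` and all shapes
with `b - a + 2 ≤ lam_a`. -/
theorem uniform_all (hRect : Rect) (a b n : ℕ) (ha : 3 ≤ a) (hab : a ≤ b) (han : a ≤ n)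
    (lam : Fin n → ℕ) (h1 : ∀ i : Fin n, (i : ℕ) < a → b + 2 ≤ lam i + a) :
    plethMult a b n lam ≤ plethMult b a n lam := by
  by_cases h0 : plethMult a b n lam = 0
  · rw [h0]
    exact Nat.zero_le _
  · obtain ⟨hanti, hsum, hz⟩ := H530.zero_stmt a b n lam h0
    obtain ⟨k, rfl⟩ := Nat.exists_eq_add_of_le han
    set mu : Fin a → ℕ := fun i => lam (Fin.castAdd k i) with hmu
    have hlam : lam = fun i : Fin (a + k) => if h : (i : ℕ) < a then mu ⟨i, h⟩ else 0 := by
      funext i
      by_cases hi : (i : ℕ) < a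
      · rw [dif_pos hi, hmu]
        congr 1
      · rw [dif_neg hi]
        exact hz i (by omega)
    have hanti' : Antitone mu := by
      intro i j hij
      have hij' : (i : ℕ) ≤ j := hij
      exact hanti (show Fin.castAdd k i ≤ Fin.castAdd k j from hij')
    have hsum' : ∑ i, mu i = a * b := by
      rw [← hsum, Fin.sum_univ_add]
      have h5 : ∑ i : Fin k, lam (Fin.natAdd a i) = 0 := by
        apply Finset.sum_eq_zero
        intro i _
        exact hz _ (by simp)
      rw [h5, add_zero]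
    rw [hlam, H530.pad_stmt a b a k mu, H530.pad_stmt b a a k mu]
    apply uniform_self' hRect ha hab mu hanti'
    · intro i
      exact h1 (Fin.castAdd k i) (by simp)
    · intro i hi
      exact last_le (by omega) mu hanti' hsum' i hi

end Vale.Agent.P181.H605
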