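import Vale.Agent.P181.H983.TDefs

set_option autoImplicit false

/-!
# P181, tall shapes, S7: one more column
-/

namespace Vale.Agent.P181.H605

open Vale.Agent.P181 Vale.Agent.P181.H280 Vale.Agent.P181.H983 Finset

/-- The first order term of a multilinear form which vanishes on a line. -/
theorem first_order {A : Type} [AddCommGroup A] [Module ℂ A] {n : ℕ}
    (φ : MultilinearMap ℂ (fun _ : Fin n => A) ℂ) (P Y : Fin n → A)
    (h : ∀ t : ℂ, φ (fun i => Y i + t • P i) = 0) :
    ∑ p, φ (Function.update Y p (P p)) = 0 := by
  classical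
  have key : ∀ t : ℂ, ∑ s : Finset (Fin n), t ^ #s * φ (s.piecewise P Y) = 0 := by
    intro t
    rw [← h t]
    have h1 : (fun i => Y i + t • P i) = (fun i => t • P i) + Y := by
      funext i
      exact add_comm _ _
    rw [h1, MultilinearMap.map_add_univ]
    refine sum_congr rfl fun s _ => ?_
    have h2 : s.piecewise (fun i => t • P i) Y =
        s.piecewise (fun i => t • s.piecewise P Y i) (s.piecewise P Y) := by
      funext i
      by_cases hi : i ∈ s <;> simp [hi]
    rw [h2, MultilinearMap.map_piecewise_smul φ (fun _ => t) (s.piecewise P Y) s, prod_const,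
      smul_eq_mul]
  have hp : (∑ s : Finset (Fin n), Polynomial.monomial #s (φ (s.piecewise P Y))) =
      (0 : Polynomial ℂ) := by
    refine Polynomial.funext fun t => ?_
    rw [Polynomial.eval_finsetSum, Polynomial.eval_zero, ← key t]
    refine sum_congr rfl fun s _ => ?_
    rw [Polynomial.eval_monomial, mul_comm]
  have hc := congrArg (fun q => Polynomial.coeff q 1) hp
  simp only [Polynomial.finsetSum_coeff, Polynomial.coeff_monomial, Polynomial.coeff_zero] at hc
  rw [← sum_filter, univ_filter_card_eq, powersetCard_one, sum_map] at hc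
  rw [← hc]
  refine sum_congr rfl fun p _ => ?_
  simp [piecewise_singleton]

theorem s7 : S7 := by
  classical
  intro A _ _ L c φ x hx hφ w hw v hv0 hv
  rw [altC_apply]
  have hstep : ∀ σ : Equiv.Perm (Fin (c + 3)),
      φ (fun i => x (σ i) * (if i = 0 then v 0 else w * v i)) =
        - ∑ p ∈ univ.erase 0, φ (Function.update
          (fun i => w * (if i = 0 then v 0 else x (σ i) * v i)) p
            (x (σ 0) * (if p = 0 then v 0 else x (σ p) * v p))) := by
    intro σ
    have h := first_order φ (fun i => x (σ 0) * (if i = 0 then v 0 else x (σ i) * v i))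
      (fun i => w * (if i = 0 then v 0 else x (σ i) * v i)) (by
        intro t
        have e : (fun i => w * (if i = 0 then v 0 else x (σ i) * v i) +
            t • (x (σ 0) * (if i = 0 then v 0 else x (σ i) * v i))) =
            fun i => (w + t • x (σ 0)) * (if i = 0 then v 0 else x (σ i) * v i) := by
          funext i
          rw [add_mul, smul_mul_assoc]
        rw [e]
        refine hφ _ (L.add_mem hw (L.smul_mem t (hx _))) _ fun i => ?_
        split_ifs with hi
        · exact hv0
        · rw [pow_succ']
          exact Submodule.mul_mem_mul (hx _) (hv i hi))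
    rw [← add_sum_erase univ _ (mem_univ (0 : Fin (c + 3)))] at h
    rw [← eq_neg_iff_add_eq_zero] at h
    rw [← h]
    congr 1
    funext i
    by_cases hi : i = 0
    · subst hi
      simp
    · rw [Function.update_of_ne hi, if_neg hi, if_neg hi]
      ring
  simp only [hstep]
  simp only [mul_neg, mul_sum, sum_neg_distrib, neg_eq_zero]
  rw [sum_comm]
  refine sum_eq_zero fun p hp => ?_
  have hp0 : p ≠ 0 := (mem_erase.1 hp).1
  have hinv : ∀ σ : Equiv.Perm (Fin (c + 3)),
      Function.update (fun i => w * (if i = 0 then v 0 else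
          x ((σ * Equiv.swap 0 p) i) * v i)) p
            (x ((σ * Equiv.swap 0 p) 0) * (if p = 0 then v 0 else
              x ((σ * Equiv.swap 0 p) p) * v p)) =
        Function.update (fun i => w * (if i = 0 then v 0 else x (σ i) * v i)) p
            (x (σ 0) * (if p = 0 then v 0 else x (σ p) * v p)) := by
    intro σ
    funext i
    by_cases hi : i = p
    · subst hi
      rw [Function.update_self, Function.update_self, if_neg hp0, if_neg hp0]
      simp only [Equiv.Perm.mul_apply, Equiv.swap_apply_left, Equiv.swap_apply_right]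
      ring
    · rw [Function.update_of_ne hi, Function.update_of_ne hi]
      by_cases h0 : i = 0
      · rw [if_pos h0, if_pos h0]
      · rw [if_neg h0, if_neg h0, Equiv.Perm.mul_apply, Equiv.swap_apply_of_ne_of_ne h0 hi]
  have hsum := Equiv.sum_comp (Equiv.mulRight (Equiv.swap (0 : Fin (c + 3)) p))
    (fun σ : Equiv.Perm (Fin (c + 3)) => ((Equiv.Perm.sign σ : ℤ) : ℂ) *
      φ (Function.update (fun i => w * (if i = 0 then v 0 else x (σ i) * v i)) p
            (x (σ 0) * (if p = 0 then v 0 else x (σ p) * v p))))
  simp only [Equiv.coe_mulRight, hinv] at hsum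
  have hsgn : ∀ σ : Equiv.Perm (Fin (c + 3)),
      ((Equiv.Perm.sign (σ * Equiv.swap 0 p) : ℤ) : ℂ) = - ((Equiv.Perm.sign σ : ℤ) : ℂ) := by
    intro σ
    rw [Equiv.Perm.sign_mul, Equiv.Perm.sign_swap hp0.symm]
    push_cast
    ring
  simp only [hsgn, neg_mul, sum_neg_distrib] at hsum
  have := neg_eq_self.1 hsum
  exact this

end Vale.Agent.P181.H605
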